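/-
S0157 (no characters ⇒ I[2,3] in a tensor power).  Shared definitions + interface statements.
No sorry in this file.  See BLUEPRINT comments in the Part files.
-/
import Mathlib
import Crest.Prelude.Def_DimDrop

set_option autoImplicit false

namespace Crest.Agent.NC157

open scoped ComplexOrder

universe u

section
variable {E : Type*} [CStarAlgebra E]

/-- Double commutant of a set: the "block algebra" of `Q`. -/
def DC (Q : Set E) : Set E := Set.centralizer (Set.centralizer Q)

/-- A set is star-closed. -/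
def StarClosed (Q : Set E) : Prop := ∀ a ∈ Q, star a ∈ Q

/-- The cut `(t - θ)_+` applied to `a`. -/
noncomputable def cut (θ : ℝ) (a : E) : E := cfc (fun t : ℝ => max (t - θ) 0) a

/-- The relations of Part D. -/
structure Rel (Y V : E) : Prop where
  sq : Y * Y = 0
  sum : star V * V + star Y * Y + Y * star Y = 1
  sup : Y * star Y * V = V

/-- Generators of a block: union of the ranges of a family of star homs. -/
def blockSet {D ι : Type*} [CStarAlgebra D] (ρ : ι → (D →⋆ₐ[ℂ] E)) : Set E :=
  ⋃ i, Set.range (ρ i)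

end

/-- Interface of Part A. -/
def PartAStatement (D : Type*) [CStarAlgebra D] : Prop :=
  ∃ (K : ℕ) (u x v : Fin K → D), (∀ i, x i * x i = 0) ∧ ∑ i, u i * x i * v i = 1

/-- Interface of Part B (conclusion): uniform `n` and coordinate type `ι`, every commuting family of
copies of `D` indexed by `ι` carries one square-zero `X` in the block with
`∑ j, c j^* (X X^* - θ)_+ c j = 1`, all `c j` in the block. -/
def PartBStatement (D : Type u) [CStarAlgebra D] : Prop :=
  ∃ (n : ℕ) (ι : Type) (_ : Fintype ι), 0 < n ∧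
    ∀ (E : Type u) [CStarAlgebra E] (ρ : ι → (D →⋆ₐ[ℂ] E)),
      (∀ i j, i ≠ j → ∀ a b, Commute (ρ i a) (ρ j b)) →
      ∃ (X : E) (c : Fin n → E) (θ : ℝ), 0 < θ ∧ X * X = 0 ∧ X ∈ DC (blockSet ρ) ∧
        (∀ j, c j ∈ DC (blockSet ρ)) ∧
        ∑ j, star (c j) * cut θ (X * star X) * c j = 1

/-- Interface of Part C (conclusion), for a given `n`. -/
def PartCStatement (n : ℕ) : Prop :=
  ∃ N : ℕ, ∀ (E : Type u) [CStarAlgebra E] (Q : Fin N → Set E),
    (∀ l, StarClosed (Q l)) →
    (∀ l l', l ≠ l' → ∀ a ∈ Q l, ∀ b ∈ Q l', Commute a b) →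
    ∀ (X : Fin N → E) (c : Fin N → Fin n → E) (θ : Fin N → ℝ),
      (∀ l, 0 < θ l) → (∀ l, X l ∈ DC (Q l)) → (∀ l j, c l j ∈ DC (Q l)) →
      (∀ l, X l * X l = 0) →
      (∀ l, ∑ j, star (c l j) * cut (θ l) (X l * star (X l)) * c l j = 1) →
      ∃ Y V : E, Rel Y V

end Crest.Agent.NC157

namespace Crest.Agent.NC157

attribute [local instance] CStarAlgebra.spectralOrder CStarAlgebra.spectralOrderedRing

section
variable {E : Type*} [CStarAlgebra E]

/-- `Cover Q z J`: `J`-many conjugates of `z` by block elements sum to something `≥ ε > 0`. -/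
def Cover (Q : Set E) (z : E) (J : Type) [Fintype J] : Prop :=
  ∃ (y : J → E) (ε : ℝ), 0 < ε ∧ (∀ j, y j ∈ DC Q) ∧
    algebraMap ℝ E ε ≤ ∑ j, star (y j) * z * y j

/-- Product along the fixed enumeration of a Fintype (no commutation proof in the term). -/
noncomputable def cprod {ι : Type*} [Fintype ι] (z : ι → E) : E :=
  ((Finset.univ : Finset ι).toList.map z).prod

/-- Jordan-Wigner string: `Zs S l = S 0 * ... * S (l-1)`. -/
def Zs (S : ℕ → E) : ℕ → E
  | 0 => 1
  | l + 1 => Zs S l * S l

/-- Central element of Part D. -/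
def zz (Y V : E) : E := star V * V + V * star V + star Y * V * star V * Y

end

end Crest.Agent.NC157
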