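/-
S0157 SKELETON.  Every `sorry` below is one work package (WP).  DO NOT import this file from a
statement file; each WP owner proves the theorem (same name, same statement) in the file named in its
header, then removes nothing here.  The skeleton only documents the interfaces and is compile-checked.

OVERALL: D no characters ⇒ A: 1 = Σ u_i x_i v_i, x_i²=0  ⇒ B: one square-zero X in a tensor block with
Σ c_j^*(XX^*-θ)_+ c_j = 1 (n uniform) ⇒ C: N commuting blocks give Y,V with Rel Y V ⇒ D: hom dimDrop 2 3 → E.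
-/
import Crest.Agent.NC157.Defs

set_option autoImplicit false

namespace Crest.Agent.NC157.Skeleton

open Crest.Agent.NC157 Crest.AnalysisR.CStar
open scoped Kronecker

universe u

attribute [local instance] CStarAlgebra.spectralOrder CStarAlgebra.spectralOrderedRing

section Tool  -- WP T  file NC157/Tool.lean (helper41 does it NOW)
variable {E : Type*} [CStarAlgebra E]

theorem subset_DC (Q : Set E) : Q ⊆ DC Q := sorry
theorem DC_mono {Q R : Set E} (h : Q ⊆ R) : DC Q ⊆ DC R := sorry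
theorem DC_comm {P Q : Set E} (h : ∀ a ∈ P, ∀ b ∈ Q, Commute a b) {x y : E}
    (hx : x ∈ DC P) (hy : y ∈ DC Q) : Commute x y := sorry
theorem DC_one (Q : Set E) : (1 : E) ∈ DC Q := sorry
theorem DC_add {Q : Set E} {x y : E} (hx : x ∈ DC Q) (hy : y ∈ DC Q) : x + y ∈ DC Q := sorry
theorem DC_mul {Q : Set E} {x y : E} (hx : x ∈ DC Q) (hy : y ∈ DC Q) : x * y ∈ DC Q := sorry
theorem DC_smul {Q : Set E} (c : ℂ) {x : E} (hx : x ∈ DC Q) : c • x ∈ DC Q := sorry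
theorem DC_sum {Q : Set E} {ι : Type*} (s : Finset ι) (f : ι → E) (h : ∀ i ∈ s, f i ∈ DC Q) :
    ∑ i ∈ s, f i ∈ DC Q := sorry
theorem DC_star {Q : Set E} (hQ : StarClosed Q) {x : E} (hx : x ∈ DC Q) : star x ∈ DC Q := sorry
theorem DC_cfc {Q : Set E} {x : E} (hx : x ∈ DC Q) (f : ℝ → ℝ) : cfc f x ∈ DC Q := sorry
theorem DC_cprod {Q : Set E} {ι : Type*} [Fintype ι] (z : ι → E) (h : ∀ i, z i ∈ DC Q) :
    cprod z ∈ DC Q := sorry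

/-- T2: the intertwining lemma; it replaces all functional-calculus juggling. -/
theorem cfc_intertwine {x p q : E} (hp : IsSelfAdjoint p) (hq : IsSelfAdjoint q)
    (h : x * p = q * x) (f : ℝ → ℝ) (hf : Continuous f) : x * cfc f p = cfc f q * x := sorry

/-- T3 -/
theorem sa_mul_eq_zero {c v : E} (hc : IsSelfAdjoint c) (h : c * c * v = 0) : c * v = 0 := sorry
/-- T4 -/
theorem mul_nonneg_of_commute {a b : E} (ha : 0 ≤ a) (hb : 0 ≤ b) (h : Commute a b) :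
    0 ≤ a * b := sorry
/-- T5: sqrt in the block -/
theorem exists_sqrt {Q : Set E} {e : E} (he : e ∈ DC Q) (h0 : 0 ≤ e) :
    ∃ c : E, c ∈ DC Q ∧ IsSelfAdjoint c ∧ c * c = e ∧ ∀ y, Commute y e → Commute y c := sorry

/-- cprod lemmas -/
theorem cprod_mul {ι : Type*} [Fintype ι] (z w : ι → E)
    (h : ∀ i j, i ≠ j → Commute (w i) (z j)) : cprod z * cprod w = cprod (fun i => z i * w i) := sorry
theorem star_cprod {ι : Type*} [Fintype ι] (z : ι → E)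
    (h : ∀ i j, i ≠ j → Commute (star (z i)) (star (z j))) :
    star (cprod z) = cprod (fun i => star (z i)) := sorry
theorem cprod_eq_zero {ι : Type*} [Fintype ι] (z : ι → E) (i : ι) (h : z i = 0) : cprod z = 0 := sorry
theorem cprod_nonneg {ι : Type*} [Fintype ι] (z : ι → E) (h0 : ∀ i, 0 ≤ z i)
    (h : ∀ i j, i ≠ j → Commute (z i) (z j)) : 0 ≤ cprod z := sorry
theorem cprod_ge {ι : Type*} [Fintype ι] (z : ι → E) (ε : ι → ℝ) (hε : ∀ i, 0 < ε i)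
    (h0 : ∀ i, algebraMap ℝ E (ε i) ≤ z i) (h : ∀ i j, i ≠ j → Commute (z i) (z j)) :
    algebraMap ℝ E (∏ i, ε i) ≤ cprod z := sorry
/-- multilinear expansion; needs NO commutativity -/
theorem cprod_sum {ι κ : Type*} [Fintype ι] [DecidableEq ι] [Fintype κ] [DecidableEq κ]
    (T : ι → Finset κ) (z : ι → κ → E) :
    cprod (fun i => ∑ j ∈ T i, z i j) = ∑ v ∈ Fintype.piFinset T, cprod (fun i => z i (v i)) := sorry
theorem mul_cprod_eq_zero {ι : Type*} [Fintype ι] (κ' : E) (z : ι → E) (l : ι) (h : κ' * z l = 0)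
    (hc : ∀ m, m ≠ l → Commute κ' (z m)) : κ' * cprod z = 0 := sorry
theorem commute_cprod {ι : Type*} [Fintype ι] (y : E) (z : ι → E) (h : ∀ i, Commute y (z i)) :
    Commute y (cprod z) := sorry
end Tool

/-! ## PART A  WP A, file NC157/PartA.lean, theorem `partA`
Let J = algebraic two-sided ideal of finite sums Σ u_i x_i v_i (x_i²=0); star-closed. Suppose 1∉J. Then 1∉I:=closure J
(units open). For self-adjoint h and any a: TENTS φ_i(t)=max(0,1-|t-iδ|/δ), Σφ_i=1 on spectrum, φ_iφ_j=0 for |i-j|≥2, so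
(φ_i(h) a φ_j(h))²=0 for |i-j|≥2 so a ≡ Σ_{|i-j|≤1} φ_i a φ_j mod J, and [h,a] ≡ Σ_{k=-1,0,1} Σ_i (((h-λ_i)φ_i)(h) a φ_{i+k}(h)
- φ_i(h) a ((h-λ_i)φ_{i+k})(h)). ROW-COLUMN inequality (purely algebraic): with t=Σ x_i y_i, X=Σ x_i x_i^*≤C:
0 ≤ Σ(√C y_i - x_i^* t/√C)^*(√C y_i - x_i^* t/√C) = CΣy_i^*y_i - 2t^*t + t^*Xt/C  ⇒ t^*t ≤ C Σ y_i^*y_i, hence
‖Σ A_i a B_i‖² ≤ ‖ΣA_iA_i^*‖‖a‖²‖ΣB_i^*B_i‖; here ΣA_iA_i^* = F(h), F=Σ(t-λ_i)²φ_i² ≤ 4δ², ΣB_i^*B_i ≤1. So ‖[h,a]-J‖≤Cδ‖a‖; [h,a]∈I.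
Hence all commutators in I. Quotient D⧸I with Ideal.IsTwoSided (Mathlib has `Ideal.Quotient.ring` for two-sided; copy the proof of
`Ideal.Quotient.normedCommRing` in Mathlib/Analysis/Normed/Group/Quotient.lean) is a commutative Banach algebra, nontrivial, so has a
character (`Nonempty (characterSpace ℂ _)` in Mathlib/Analysis/CStarAlgebra/GelfandDuality.lean:125 or earlier); D→ℂ is an AlgHom; star-preserving automatically
(`WeakDual.Complex.instStarHomClass`-style). Contradiction with hD. So 1∈J. -/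
theorem partA {D : Type*} [CStarAlgebra D] [Nontrivial D] (hD : IsEmpty (D →⋆ₐ[ℂ] ℂ)) :
    PartAStatement D := sorry

/-! ## PART B1  WP B1, file NC157/Hat.lean -/
/-- hat guessing; pure combinatorics. Z(v)={u | ∀h, v h ≠ h u} has ≤k elements (k+1 distinct z_c ⇒ take h with h z_c=c, then
v h = c contradicts z_c∈Z). Enumerate Z(v) = {z_i}, α i := z_i i. -/
theorem hat (k : ℕ) (v : ((Fin k → Fin (k + 1)) → Fin (k + 1)) → Fin (k + 1)) :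
    ∃ α : Fin k → Fin (k + 1), ∀ u : Fin k → Fin (k + 1),
      (∃ i, u i = α i) ∨ (∃ h : (Fin k → Fin (k + 1)) → Fin (k + 1), v h = h u) := sorry

/-- D-level letters. -/
structure Letters {D : Type*} [CStarAlgebra D] {k : ℕ} (A A' B B' wa wb : Fin (k + 1) → D)
    (ya yb : Fin (k + 1) → Fin 2 → D) : Prop where
  A0 : ∀ i, 0 ≤ A i
  A'0 : ∀ i, 0 ≤ A' i
  B0 : ∀ i, 0 ≤ B i
  B'0 : ∀ i, 0 ≤ B' i
  Aorth : ∀ i, A i * A' i = 0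
  Borth : ∀ i, B' i * B i = 0
  Acov : ∃ δ : ℝ, 0 < δ ∧ algebraMap ℝ D δ ≤ ∑ i, star (wa i) * A i * wa i
  Bcov : ∃ δ : ℝ, 0 < δ ∧ algebraMap ℝ D δ ≤ ∑ i, star (wb i) * B i * wb i
  A'cov : ∃ κ : ℝ, 0 < κ ∧ ∀ i, algebraMap ℝ D κ ≤ ∑ s, star (ya i s) * A' i * ya i s
  B'cov : ∃ κ : ℝ, 0 < κ ∧ ∀ i, algebraMap ℝ D κ ≤ ∑ s, star (yb i s) * B' i * yb i s

/-- WP B1b.  a_i=x_i x_i^*, b_i=x_i^*x_i, A_i=cut θ a_i, A'_i=cfc (θ-t)_+ a_i, B_i=cut θ b_i, B'_i=cfc (θ-t)_+ b_i.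
A'cov: x a = 0 (x²=0) so x f(a) = f(0) x (cfc_intertwine with q=0), so x A' x^* = θ a and A' + θ⁻¹ x A' x^* = cfc max(θ,t) a ≥ θ.
B'cov same with x^*.  Acov: with w_i=u_i^*: squares trick: p:=Σu_i a_i u_i^*; with α_i=u_i x_i, Σα_i v_i=1:
0 ≤ Σ(α_i^* - s v_i)^*(α_i^* - s v_i) = p - 2s + s²Σv_i^*v_i ⇒ p ≥ 2s - s²C = 1/C for s=1/C (C=‖Σv_i^*v_i‖, +1).
a ≤ cut θ a + θ gives Σu_i cut_θ(a_i) u_i^* ≥ 1/C - θ‖Σu_iu_i^*‖ >0 for small θ. Bcov same with β_i=x_i v_i, Σu_iβ_i=1, w_i=v_i. -/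
theorem letters_exist {D : Type*} [CStarAlgebra D] {k : ℕ} (u x v : Fin (k + 1) → D)
    (hx : ∀ i, x i * x i = 0) (h1 : ∑ i, u i * x i * v i = 1) :
    ∃ (A A' B B' wa wb : Fin (k + 1) → D) (ya yb : Fin (k + 1) → Fin 2 → D),
      Letters A A' B B' wa wb ya yb := sorry

/-- WP B1c.  ι = Fin k ⊕ W where U=Fin k→C, C=Fin(k+1), W=U→C, V=W→C. Words: for u∈U:
word_f u = Sum.elim (fun i => A (u i)) (fun h => B' (h u)); for v∈V, α v from `hat`: word_g v = Sum.elim (fun i => A' (α v i)) (fun h => B (v h)).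
F u = cprod (fun i => ρ i (word_f u i)), f=Σ_u F u, g=Σ_v G v. F u * G v = 0 by cprod_mul + cprod_eq_zero (hat gives the zero letter).
Cover of f: conjugators indexed by (u, s : W→Fin 2): y_{u,s} = cprod over coordinates of: Alice i: ρ_i(wa (u i)); Bob h: ρ_h(yb (h u) (s h)).
Σ_s y^*F_u y ≥ κ^{|W|} · cprod_i ρ_i(wa(u i)^* A(u i) wa(u i)) (Bob part via cprod_sum + cprod_ge); sum over u = κ^{|W|} cprod_i ρ_i(Σ_j wa_j^*A_jwa_j) ≥ κ^{|W|} δ^k (cprod_sum, cprod_ge).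
f ≥ F u (all terms ≥0).  g symmetric: for v, conjugators (v, s : Fin k → Fin 2): Bob h: ρ_h(wb (v h)); Alice i: ρ_i(ya (α v i) (s i)). Σ over v of Bob part = cprod_h ρ_h(Σ_j wb_j^*B_jwb_j). -/
theorem hat_pair {D : Type u} [CStarAlgebra D] {k : ℕ} {A A' B B' wa wb : Fin (k + 1) → D}
    {ya yb : Fin (k + 1) → Fin 2 → D} (hL : Letters A A' B B' wa wb ya yb) :
    ∃ (ι J : Type) (_ : Fintype ι) (_ : Fintype J),
      ∀ (E : Type u) [CStarAlgebra E] (ρ : ι → (D →⋆ₐ[ℂ] E)),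
        (∀ i j, i ≠ j → ∀ a b, Commute (ρ i a) (ρ j b)) →
        ∃ f g : E, 0 ≤ f ∧ 0 ≤ g ∧ f * g = 0 ∧ f ∈ DC (blockSet ρ) ∧ g ∈ DC (blockSet ρ) ∧
          Cover (blockSet ρ) f J ∧ Cover (blockSet ρ) g J := sorry

/-! ## PART B2  WP B2, file NC157/PairX.lean -/
/-- Coordinates (Fin (k+1) × ι) ⊕ Unit.  For copy j: f_j,g_j from ρ∘inl(j,·).  G_j = f_0…f_{j-1} g_j (product of commuting, ≥0, Cover by product of covers);
G_j G_j' = 0 for j≠j'.  H_j=√G_j (exists_sqrt; H_jH_j'=0 by cfc_intertwine), ρ₀=ρ(inr ()),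
X = Σ_j H_j ρ₀(x_j).  X²=Σ_j G_j ρ₀(x_j²)=0; XX^*=Σ_j G_j ρ₀(x_j x_j^*) [off-diagonal terms vanish]. Cover(XX^*): conjugators y_{j,i}ρ₀(u_j^*) ((y_{j,i})_i cover of G_j);
Σ ≥ Σ_j (Σ_i y^*G_jy) ρ₀(u_j a_j u_j^*) ≥ ε ρ₀(Σ_j u_j a_j u_j^*) ≥ εδ.  Then θ small: cut θ a ≥ a - θ so Σ y^* cut θ(XX^*) y ≥ εδ/2=:s-level; s:=Σ y^*cut y invertible positive; c_i=y_i s^{-1/2}: Σc_i^* cut c_i=1.
n = card of (Fin(k+1) × J_total) (uniform). -/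
theorem partB_of_pair {D : Type u} [CStarAlgebra D] {k : ℕ} (u x v : Fin (k + 1) → D)
    (hx : ∀ i, x i * x i = 0) (h1 : ∑ i, u i * x i * v i = 1)
    (hp : ∃ (ι J : Type) (_ : Fintype ι) (_ : Fintype J),
      ∀ (E : Type u) [CStarAlgebra E] (ρ : ι → (D →⋆ₐ[ℂ] E)),
        (∀ i j, i ≠ j → ∀ a b, Commute (ρ i a) (ρ j b)) →
        ∃ f g : E, 0 ≤ f ∧ 0 ≤ g ∧ f * g = 0 ∧ f ∈ DC (blockSet ρ) ∧ g ∈ DC (blockSet ρ) ∧
          Cover (blockSet ρ) f J ∧ Cover (blockSet ρ) g J) :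
    PartBStatement D := sorry

/-! ## PART C -/
section C
variable {E : Type*} [CStarAlgebra E]

/-- WP C1: local package, file NC157/LocalPkg.lean.  rt=ρ̃(u), mm=(1-μ)(u), nn=n(u), rr=r(u), u=x^*x+xx^*, S=ψ(b)=C(b)+i s(b). -/
structure LocalPkg (Q : Set E) {n : ℕ} (x S rt mm nn rr : E) (w : Fin n → E) : Prop where
  x_mem : x ∈ DC Q
  S_mem : S ∈ DC Q
  Sstar_mem : star S ∈ DC Q
  xstar_mem : star x ∈ DC Q
  rt_mem : rt ∈ DC Q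
  mm_mem : mm ∈ DC Q
  nn_mem : nn ∈ DC Q
  rr_mem : rr ∈ DC Q
  w_mem : ∀ j, w j ∈ DC Q
  wstar_mem : ∀ j, star (w j) ∈ DC Q
  rt_sa : IsSelfAdjoint rt
  mm_nn : 0 ≤ mm
  nn_nn : 0 ≤ nn
  rr_nn : 0 ≤ rr
  /-- rt, mm, nn, rr commute with each other and with x, x^*, S, S^* : -/
  central : ∀ y ∈ ({rt, mm, nn, rr} : Set E), ∀ z ∈ ({x, star x, S, star S, rt, mm, nn, rr} : Set E),
    Commute y z
  x_sq : x * x = 0
  S_unit : star S * S = 1 ∧ S * star S = 1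
  S_x : S * x = x
  xstar_S : star x * S = star x
  nn_u : nn * (star x * x + x * star x) = 1 - mm
  rr_u : rr * (star x * x + x * star x) = 1 - rt * rt
  rt_mm : rt * rt * mm = rt * rt
  anti1 : nn * x * (1 + S) = 0
  anti2 : rr * x * (1 + S) = 0
  anti3 : nn * (1 + S) * star x = 0
  anti4 : rr * (1 + S) * star x = 0
  w_sum : ∑ j, star (w j) * w j = 1
  x_w : ∀ j, x * w j = 0
  mm_w : ∀ j, mm * w j = 0
  rt_w : ∀ j, rt * w j = 0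
  nn_rt : nn * rt = 0

/-- Levels: ρ̃(t)=clamp(2-4t/θ) (=1 on t≤θ/4, =0 on t≥θ/2); μ(t)=clamp(2t/θ-1) (0 on t≤θ/2, 1 on t≥θ); mm=(1-μ)(u); nn=(μ(t)/max(t,θ/2))(u); rr=((1-ρ̃²)(t)/max(t,θ/4))(u);
w_j=√τ(a) c_j with √τ(t)=sqrt(max(t-θ,0)); S=C(b)+iS'(b), C=cos(π clamp(4t/θ)), S'=sin(π clamp(4t/θ)).
Facts: x a=0 ⇒ x f(a)=f(0)x (intertwine with q=0). b x=0. x u= x b = a x ⇒ x F(u)=F(a)x=x F(b). x^*u=x^*a=b x^* ⇒ x^*F(u)=F(b)x^*. u commutes with x, x^*, b.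
anti1: F(u) x (1+S)= x F(u)(1+S)= x F(b)(1+S)= x (F·(1+ψ))(b)=0 since F=0 on t≤θ/4 and ψ=-1 on t≥θ/4. anti3: F(u)x^*=F(b)x^*, (1+S)F(b)x^*=0.
mm_w etc: g(a) with g(0)=0: g(a) b=0 so g(a) u= g(a) a = a g(a), so g(a)F(u)=F(a)g(a), so F(u)g(a)=(Fg)(a); (1-μ)√τ=0, ρ̃√τ=0. -/
theorem localPkg_exists {Q : Set E} (hQ : StarClosed Q) {n : ℕ} {x : E} {c : Fin n → E} {θ : ℝ}
    (hθ : 0 < θ) (hx : x ∈ DC Q) (hc : ∀ j, c j ∈ DC Q) (hsq : x * x = 0)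
    (h1 : ∑ j, star (c j) * cut θ (x * star x) * c j = 1) :
    ∃ (S rt mm nn rr : E) (w : Fin n → E), LocalPkg Q x S rt mm nn rr w := sorry

/-- WP C2: Jordan-Wigner, file NC157/JW.lean.  T_l=c_l Zs S l x_l; pure algebra.
{T_l,T_m}=0 (l<m): by induction on m>l: c_l (x_l Z_m + Z_m x_l)=0 [base m=l+1 uses S_l x_l=x_l and c_l x_l(1+S_l)=0].
{T_l^*,T_m}=0 (l<m): c_l (x_l^* Z.. ) similarly uses x_l^*S_l=x_l^* and c_l(1+S_l)x_l^*=0 and Z_l unitary. T_l²=0. Z_l commutes with x_l. -/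
theorem jordanWigner (N : ℕ) (x S c : ℕ → E)
    (hxx : ∀ l < N, ∀ m < N, l ≠ m → Commute (x l) (x m) ∧ Commute (x l) (star (x m)) ∧
      Commute (x l) (S m) ∧ Commute (x l) (star (S m)) ∧ Commute (star (x l)) (S m) ∧ Commute (star (x l)) (star (S m)))
    (hSS : ∀ l < N, ∀ m < N, Commute (S l) (S m) ∧ Commute (S l) (star (S m)))
    (hc_sa : ∀ l < N, IsSelfAdjoint (c l))
    (hc : ∀ l < N, ∀ m < N, Commute (c l) (x m) ∧ Commute (c l) (star (x m)) ∧ Commute (c l) (S m) ∧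
      Commute (c l) (star (S m)) ∧ Commute (c l) (c m))
    (hsq : ∀ l < N, x l * x l = 0)
    (hU : ∀ l < N, star (S l) * S l = 1 ∧ S l * star (S l) = 1)
    (hSx : ∀ l < N, S l * x l = x l)
    (hxS : ∀ l < N, star (x l) * S l = star (x l))
    (ha1 : ∀ l < N, c l * x l * (1 + S l) = 0)
    (ha2 : ∀ l < N, c l * (1 + S l) * star (x l) = 0) :
    let Y := ∑ l ∈ Finset.range N, c l * Zs S l * x l
    Y * Y = 0 ∧
      star Y * Y + Y * star Y = ∑ l ∈ Finset.range N, c l * c l * (star (x l) * x l + x l * star (x l)) := sorry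

end C

/-- WP C3: pure combinatorics, file NC157/Boxes.lean.  P(1): one coordinate. P(n)⇒P'(n): coordinates {q}⊔(Fin n×L), q:{j} + P(n) on the j-th private copy (others free), S=S_b∪{q} (|S|≥2).
P(n+1): coordinates L' of P'(n), star=last letter; box "first star at l": before l all non-star, at l {star}, rest free, S={l}; box "no star": lift of P'(n) box. State it over a general Fintype L first, transport to Fin N at the end. -/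
theorem box_partition (n : ℕ) (hn : 0 < n) :
    ∃ (N : ℕ) (B : Type) (_ : Fintype B) (A : B → Fin N → Finset (Fin n)) (S : B → Finset (Fin N)),
      Function.Injective S ∧ (∀ b, (S b).Nonempty) ∧ (∀ b, ∀ l ∈ S b, ∃ j, A b l = {j}) ∧
        ∀ v : Fin N → Fin n, ∃! b, ∀ l, v l ∈ A b l := sorry

/-- WP C4: file NC157/PartC.lean.  N,B,A,S from box_partition. Per coordinate l LocalPkg (localPkg_exists) on Q l.
A_l=mm_0…mm_{l-1}, A_N=all mm, B_l=rt_0²…rt_{l-1}²; c_l=√(A_l nn_l + A_N B_l rr_l) (exists_sqrt); Y from jordanWigner.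
Telescoping (rt²mm=rt²): Σ c_l²u_l = 1 - A_N + A_N(1 - Π rt²) = 1 - Π rt_l² =: h.
y_{l,F}=√(rt_l t_{l,F} rt_l), t_{l,F}=Σ_{j∈F} w_{l,j}^*w_{l,j}. z_{b,l}= w_{l,j} rt_l if l∈S b, A b l={j}; y_{l,A b l} if l∉S b. W_b=cprod (z_b ·), V=Σ_b W_b.
z^*z=rt t_{A b l} rt always. b≠b' ⇒ S b≠S b' ⇒ some l in symmetric difference: rt w=0 ⇒ y w=0 (sa_mul_eq_zero) ⇒ z_{b,l}^* z_{b',l}=0 ⇒ W_b^*W_b'=0. Σ_b W_b^*W_b=Σ_b Π_l T_l(A b l)=Π_l T_l(univ)=Π rt_l² via cprod_sum + partition.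
YW_b=0: l∈S b: x_l z_{b,l}=0; l∉S b: c_l²W_b=0 since nn_l z_{b,l}=0 (nn rt=0 ⇒ nn y=0) and A_N W_b=0 (mm_m z_{b,m}=0 for m∈S b≠∅) ⇒ c_l W_b=0. hW_b=W_b since rt_m² z_{b,m}=0 for m∈S b.
⇒ YV=0, hV=V, YY^*V=(h-Y^*Y)V=V, V^*V=Π rt² = 1-h. So Rel Y V. -/
theorem partC (n : ℕ) (hn : 0 < n) : PartCStatement.{u} n := sorry

/-! ## PART D -/
section D
variable {E : Type*} [CStarAlgebra E]

/-- WP D1: derived relations, file NC157/RelAlg.lean.  q=V^*V=1-h, h=Y^*Y+YY^*, z=zz Y V, all pure algebra (uses (w w^*=0 ⇒ w=0) a few times):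
YV=0 (V=YY^*V); V*V^2 : qV=(1-h)V=0 ⇒ V²=0 [ (VV)^*(VV)=V^*qV=0 ]; V^*YY^*=V^*; h commutes with Y: hY=YY^*Y=Yh, so q commutes with Y,Y^*;
VY^*V=0 [ (VY^*V)^*(VY^*V)=V^*Y q Y^*V=V^*q(YY^*V)=0 ]; z central; q²=zq; VV^*V=zV; VV^*=(z-q)YY^*; Y^*VV^*Y=(z-q)Y^*Y; (z-q)h=z-q; (YY^*)²=hYY^*; Y^*YY^*=hY^*; ‖z‖≤1 & 0≤z [z^k = q^k+(VV^*)^k+(Y^*VV^*Y)^k has norm ≤3, C*-identity]. -/
theorem rel_facts {Y V : E} (h : Rel Y V) :
    let q := star V * V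
    let z := zz Y V
    Y * V = 0 ∧ V * V = 0 ∧ star V * (Y * star Y) = star V ∧ Commute q Y ∧ Commute q (star Y) ∧
    q * V = 0 ∧ star V * q = 0 ∧ V * star Y * V = 0 ∧
    (∀ a ∈ ({Y, star Y, V, star V} : Set E), Commute z a) ∧
    q * q = z * q ∧ V * star V * V = z * V ∧
    V * star V = (z - q) * (Y * star Y) ∧ star Y * V * star V * Y = (z - q) * (star Y * Y) ∧
    (z - q) * (1 - q) = z - q ∧
    (Y * star Y) * (Y * star Y) = (1 - q) * (Y * star Y) ∧ star Y * Y * star Y = (1 - q) * star Y ∧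
    Y * star Y * Y = (1 - q) * Y ∧ 0 ≤ z ∧ ‖z‖ ≤ 1 := sorry

/-- WP D2a, file NC157/Chart.lean. Central calculus of z: Γ g = cfc (g ∘ clamp ∘ re) z, or via cfcHom. -/
theorem exists_Gamma {z : E} (h0 : 0 ≤ z) (h1 : ‖z‖ ≤ 1) :
    ∃ Γ : C(unitInterval, ℂ) →⋆ₐ[ℂ] E,
      Γ ⟨fun t => ((t : ℝ) : ℂ), by fun_prop⟩ = z ∧ ∀ g y, Commute y z → Commute y (Γ g) := sorry

/-- WP D2b: generic chart map. -/
noncomputable def CM {α : Type*} [Fintype α] (Γ : C(unitInterval, ℂ) →⋆ₐ[ℂ] E) (R : α → E)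
    (G : α → α → C(unitInterval, ℂ)) : E :=
  ∑ a, ∑ b, R a * Γ (G a b) * star (R b)

theorem CM_mul {α : Type*} [Fintype α] [DecidableEq α] (Γ : C(unitInterval, ℂ) →⋆ₐ[ℂ] E)
    (hΓ : ∀ g y, Commute y (Γ g)) (R : α → E) (base : E) (w : C(unitInterval, ℂ))
    (h1 : ∀ a b, star (R a) * R b = if a = b then Γ w * base else 0)
    (h2 : ∀ a, R a * base = Γ w * R a) (G G' : α → α → C(unitInterval, ℂ)) :
    CM Γ R G * CM Γ R G' = CM Γ R (fun a d => w ^ 2 * ∑ b, G a b * G' b d) := sorry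

theorem CM_star {α : Type*} [Fintype α] (Γ : C(unitInterval, ℂ) →⋆ₐ[ℂ] E)
    (hΓ : ∀ g y, Commute y (Γ g)) (R : α → E) (G : α → α → C(unitInterval, ℂ)) :
    star (CM Γ R G) = CM Γ R (fun a b => star (G b a)) := sorry

/-- WP D3 tables, file NC157/Tables.lean.  Fix Γ for z=zz Y V, t=id, Sz=Γ√t, Sl=Γ√(1-t), λ=Γ(1-t). Columns:
c 0 = Sz V, c 1 = Sz Y^*V, c 2 = q. Table: c_u^*c_v=δ Γ(t) q; c_u q=Γ(t) c_u; Σc_uc_u^*=Γ(t²).
ε 0 = q YY^*, ε 1 = Sl q Y^*. qε_m=zε_m=ε_m q; ε_m^*ε_n=δ zλ ε_0; ε_m ε_0 = zλ ε_m; Σ_m ε_mε_m^*= zλ²q.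
Chart m: R (n,u) = c u * ε n (n:Fin 2,u:Fin 3), base R (0,2)=zε_0, weight wm=t²(1-t); ΣRR^*=wm².
Chart 1: R=c, base q, weight t.
Chart 0: ζ∈C(I,ℂ) real with ζ=0 on t≥1/2, ζ=1 on t≤2/5; ξ=1+q Γ(φ), η=1+qΓ(1/(1-t)) (on supp ζ), φ=1/(√(1-t)(1+√(1-t))) [so ζ ξ²=ζ η, ζ η (1-q)=ζ]:
R0 0=Γζ η YY^*, R0 1=Γζ ξ Y^*, base R0 0, weight ζ; ΣR0R0^*=ζ².
Compat c1: Σ_n R(n,u)R(n,v)^* = Γ(t²(1-t)²) c_u c_v^*.
Compat c0: Γ(ζ²)·[Σ_n R(n,m)R(n,m')^* + R(m,2)R(m',2)^*]=Γ(wm²) R0_m R0_m'^* (m,m':Fin 2, u=m as Fin 3).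
 Check: c_0c_0^*=z(z-q)YY^*, ε_0ε_0^*=zλqYY^*, K(0,0)=z⁴λ(λ+q)YY^*, λη=λ+q on ζ. K(0,1)=z³λ[λ(z-q)+Sl q]Y and zλξ=zλ+q(Sl-λ). -/
theorem tables_placeholder : True := trivial

end D

/-- WP D4 matrix side, file NC157/DimDropFun.lean.  a f := entries of f 0 from a⊗1; b f from 1⊗b; σ swaps (1,0)↔(0,1) in Fin 2×Fin 3;
rho1 a p p' = (a⊗1) (σ p) (σ p').  U(t)=α(t)+β(t)P (P=perm matrix of σ, α=(1+e^{iθ})/2, β=(1-e^{iθ})/2, θ=π·clamp(3-5t)): U=P on t≤2/5, U=1 on t≥3/5.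
r(t)=clamp(5t-2): r=0 on t≤2/5, r=1 on t≥3/5.  G f t = U(t) f(r t) U(t)^*. -/
noncomputable def rho1 (a : Matrix (Fin 2) (Fin 2) ℂ) : Matrix (Fin 2 × Fin 3) (Fin 2 × Fin 3) ℂ :=
  fun p p' =>
    if p.2 = 2 ∧ p'.2 = 2 then a p.1 p'.1
    else if p.2 ≠ 2 ∧ p'.2 ≠ 2 ∧ p.1 = p'.1 then
      a ⟨p.2.val % 2, by omega⟩ ⟨p'.2.val % 2, by omega⟩ else 0

theorem exists_G :
    ∃ (G : dimDrop 2 3 →⋆ₐ[ℂ] C(unitInterval, Matrix (Fin 2 × Fin 3) (Fin 2 × Fin 3) ℂ))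
      (a : dimDrop 2 3 →⋆ₐ[ℂ] Matrix (Fin 2) (Fin 2) ℂ)
      (b : dimDrop 2 3 →⋆ₐ[ℂ] Matrix (Fin 3) (Fin 3) ℂ),
      (∀ f (t : unitInterval), (t : ℝ) ≤ 2 / 5 → G f t = rho1 (a f)) ∧
      (∀ f (t : unitInterval), 3 / 5 ≤ (t : ℝ) → G f t = (1 : Matrix (Fin 2) (Fin 2) ℂ) ⊗ₖ b f) := sorry

/-- WP D5 final, file NC157/PartD.lean: Θ f = CM R0 (ν0·a f)+CM c (g1·b f)+CM R (gm·G f), see blueprint in chat. -/
theorem partD {E : Type*} [CStarAlgebra E] {Y V : E} (h : Rel Y V) :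
    Nonempty (dimDrop 2 3 →⋆ₐ[ℂ] E) := sorry

end Crest.Agent.NC157.Skeleton
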